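import Mathlib
import Vale.Agent.P131.Main

/-!
A nonscalar operator on a separable infinite-dimensional Hilbert space with transitive commutant.
-/

namespace Vale.Agent.Results.P131.TransitiveCommutant

open Vale.Agent.P131

/-- There are a separable infinite-dimensional complex Hilbert space and a nonscalar bounded
operator on it without a nontrivial closed hyperinvariant subspace. -/
theorem result :
    ∃ (H : Type) (_ : NormedAddCommGroup H) (_ : InnerProductSpace ℂ H) (_ : CompleteSpace H)
      (_ : TopologicalSpace.SeparableSpace H),
      ¬ FiniteDimensional ℂ H ∧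
        ∃ T : H →L[ℂ] H, (∀ μ : ℂ, T ≠ μ • 1) ∧
          ∀ X : Submodule ℂ H, IsClosed (X : Set H) →
            (∀ A : H →L[ℂ] H, A * T = T * A → ∀ x ∈ X, A x ∈ X) → X = ⊥ ∨ X = ⊤ :=
  ⟨Hil, inferInstance, inferInstance, inferInstance, separable_hil, not_finiteDimensional_hil,
    exists_transitive_commutant⟩

end Vale.Agent.Results.P131.TransitiveCommutant
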